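import Vale.Agent.P167.H825.G.Far

/-!
# P167, general `q`, GeoQ: [FAR] for one history and one index
-/

set_option autoImplicit false

open MeasureTheory Filter Topology Set Metric Bornology

namespace Vale.Agent.P167.H825.G

open Vale.Agent.P153.R2
open Vale.Agent.P153.R2.DET (Uni HC)
open Vale.Agent.P167.E6 Vale.Agent.P167.E2 Vale.Agent.P167.H411 Vale.Agent.P167.H756
open Vale.Agent.P167.H192 (ro)
open Vale.Agent.P167.H161 (Rd mem_Rd)

variable {Φ : (ℝ × ℝ) ≃ₜ (ℝ × ℝ)} {ψ : ℂ → ℂ} {δ : ℕ → ℝ} {N k : ℕ → ℕ}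
  {p : ∀ n, ZMod (N n) → ℤ × ℤ} {S : ℕ → Finset (ℤ × ℤ)} {ψn : ℕ → ℂ → ℂ}

/-- **[FAR]** for one history `A` and one index `j` before the exit: the path, the vertices of the
medial edges and the squares which were read are at distance `ρ` from the target. -/
theorem far_bef (H : Set6 Φ ψ δ N k p S ψn) {T R : ℝ} (hT : 0 ≤ T) (hR : 0 ≤ R) :
    ∃ ρ : ℝ, 0 < ρ ∧ ∀ᶠ n in atTop, ∀ A ∈ (exn δ N k p S ψn n).C,
      ∀ j < (exn δ N k p S ψn n).K A,
      (∀ i < j, (exn δ N k p S ψn n).c A i ≤ T ∧ |(exn δ N k p S ψn n).V A i| ≤ R) →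
      (∀ t ∈ Icc (0 : ℝ) j,
        ρ ≤ dist (pl (p n) (k n) (δ n) A t) ((δ n : ℂ) * pt (p n (k n)))) ∧
      (∀ i ≤ j - 1, ρ ≤ dist ((δ n : ℂ) * pt (run (p n) (k n) A i).1)
        ((δ n : ℂ) * pt (p n (k n)))) ∧
      ∀ q ∈ Rd (p n) (k n) (S n) A j, ρ / δ n ≤ ((nm (q - ro (p n (k n))) : ℤ) : ℝ) := by
  obtain ⟨ρ, hρ, h⟩ := H469.sep_n H (H469.radF_pos hT hR)
  refine ⟨ρ / 2, by positivity, ?_⟩
  filter_upwards [h, H469.path_in H hT hR,
    (Metric.tendsto_nhds.1 H.appr.2.1) (ρ / 8) (by positivity)] with n hn hin hδ A hA j hj hb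
  obtain ⟨hd, -⟩ := H.appr.1 n
  rw [dist_zero_right, Real.norm_of_nonneg hd.le] at hδ
  have h7 := dist_bM (p n) (k n) hd.le
  have hpl : ∀ t ∈ Icc (0 : ℝ) j,
      ρ - δ n ≤ dist (pl (p n) (k n) (δ n) A t) ((δ n : ℂ) * pt (p n (k n))) := by
    intro t ht
    obtain ⟨z, hz, hzC, hzt⟩ := hin A hA j hj hb t ht
    have h1 := (hn z hz hzC).1
    rw [hzt] at h1
    have h2 := dist_triangle (pl (p n) (k n) (δ n) A t) ((δ n : ℂ) * pt (p n (k n)))
      (bM (p n) (k n) (δ n))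
    linarith
  have hA' : A ⊆ edges (S n) := (mem_Qc (p := p n) (k := k n) (δ := δ n)).1 hA
  have hK' : j < nu (p n) (k n) A := hj
  unfold nu at hK'
  have hrun : ∀ i ≤ j - 1, ρ - 3 * δ n ≤ dist ((δ n : ℂ) * pt (run (p n) (k n) A i).1)
      ((δ n : ℂ) * pt (p n (k n))) := by
    intro i hi
    have hcpt : ∀ θ : ℝ, 0 ≤ θ → θ ≤ 1 → ∀ c : Medial,
        dist ((δ n : ℂ) * cpt θ c) ((δ n : ℂ) * pt c.1) ≤ 2 * δ n := by
      intro θ h0 h1 c
      rw [dist_eq_norm, ← mul_sub, norm_mul, Complex.norm_real, Real.norm_of_nonneg hd.le,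
        ← dist_eq_norm]
      have := dist_cpt θ h0 c
      nlinarith
    rcases Nat.eq_zero_or_pos j with h0 | h0
    · have hi0 : i = 0 := by omega
      subst hi0
      have h1 := hpl 0 ⟨le_rfl, Nat.cast_nonneg _⟩
      rw [pl_zero, aM_eq] at h1
      have h2 := hcpt (3 / 8) (by norm_num) (by norm_num) (cs (p n))
      have h3 := dist_triangle_left ((δ n : ℂ) * pt (cs (p n)).1) ((δ n : ℂ) * pt (p n (k n)))
        ((δ n : ℂ) * cpt (3 / 8) (cs (p n)))
      have h4 := dist_triangle ((δ n : ℂ) * cpt (3 / 8) (cs (p n))) ((δ n : ℂ) * pt (cs (p n)).1)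
        ((δ n : ℂ) * pt (p n (k n)))
      have e : (run (p n) (k n) A 0).1 = (cs (p n)).1 := rfl
      rw [e]
      linarith
    · have h1 := hpl ((i + 1 : ℕ) : ℝ) ⟨Nat.cast_nonneg _, by
        exact_mod_cast (by omega : i + 1 ≤ j)⟩
      have h2 : pl (p n) (k n) (δ n) A ((i + 1 : ℕ) : ℝ) =
          (δ n : ℂ) * cpt (1 / 4) (run (p n) (k n) A i) := by
        unfold pl
        rw [lin_nat, xv_mid (by omega)]
      rw [h2] at h1
      have h3 := hcpt (1 / 4) (by norm_num) (by norm_num) (run (p n) (k n) A i)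
      have h4 := dist_triangle ((δ n : ℂ) * cpt (1 / 4) (run (p n) (k n) A i))
        ((δ n : ℂ) * pt (run (p n) (k n) A i).1) ((δ n : ℂ) * pt (p n (k n)))
      linarith
  refine ⟨fun t ht => by linarith [hpl t ht], fun i hi => by linarith [hrun i hi],
    fun q hq => ?_⟩
  rw [mem_Rd hA'] at hq
  obtain ⟨-, i, hi, rfl⟩ := hq
  have h1 := hrun i (by omega)
  rw [dist_eq_norm, ← mul_sub, norm_mul, Complex.norm_real, Real.norm_of_nonneg hd.le,
    ← dist_eq_norm] at h1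
  have h5 := dist_pt_le (run (p n) (k n) A i).1 (p n (k n))
  have h6 := sq_near (run (p n) (k n) A i)
  have h8 : nm (ro (run (p n) (k n) A i).1 - ro (p n (k n))) ≤
      nm (H192.sq (ahead (run (p n) (k n) A i)) - ro (p n (k n))) + 1 := by
    have := Enl.nm_tri (ro (run (p n) (k n) A i).1) (H192.sq (ahead (run (p n) (k n) A i)))
      (ro (p n (k n)))
    have e := Enl.nm_sub_comm (ro (run (p n) (k n) A i).1)
      (H192.sq (ahead (run (p n) (k n) A i)))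
    omega
  have h9 : ((nm (ro (run (p n) (k n) A i).1 - ro (p n (k n))) : ℤ) : ℝ) ≤
      ((nm (H192.sq (ahead (run (p n) (k n) A i)) - ro (p n (k n))) : ℤ) : ℝ) + 1 := by
    exact_mod_cast h8
  rw [div_le_iff₀ hd]
  nlinarith

end Vale.Agent.P167.H825.G
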