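import Vale.Agent.P167.H469.FarB
import Vale.Agent.P167.XDL.Geo

/-!
# P167, general `q`, GeoQ: [FAR]

Before the exit from `[0, T] × [-R, R]` the path and the squares which were read have a macroscopic
distance from the target and from the boundary points `ψn b`, `b` large.
-/

set_option autoImplicit false

open MeasureTheory Filter Topology Set Metric Bornology

namespace Vale.Agent.P167.H825.G

open Vale.Agent.P153.R2
open Vale.Agent.P153.R2.DET (Uni HC)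
open Vale.Agent.P167.SLE (bq)
open Vale.Agent.P167.E6 Vale.Agent.P167.E2 Vale.Agent.P167.H411 Vale.Agent.P167.H756
open Vale.Agent.P167.H192 (ro)
open Vale.Agent.P167.H161 (Rd mem_Rd)

/-! ### distances -/

/-- The square ahead of a medial edge is near its vertex. -/
theorem sq_near (c : Medial) : nm (H192.sq (ahead c) - ro c.1) ≤ 1 := by
  obtain ⟨v, r⟩ := c
  unfold ahead
  rw [H192.sq_mk]
  obtain ⟨x, y⟩ := v
  have h : ∀ s : Fin 4, nm ((min (ro (x, y)).1 (ro ((x, y) + dir s)).1,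
      min (ro (x, y)).2 (ro ((x, y) + dir s)).2) - ro (x, y)) ≤ 1 := by
    intro s
    unfold nm H192.ro
    rw [max_le_iff, abs_le, abs_le]
    rcases H192.fin4_cases s with rfl | rfl | rfl | rfl
    · have : dir 0 = (1, 0) := rfl
      rw [this]
      simp only [Prod.mk_add_mk, Prod.fst_sub, Prod.snd_sub]
      omega
    · have : dir 1 = (0, 1) := rfl
      rw [this]
      simp only [Prod.mk_add_mk, Prod.fst_sub, Prod.snd_sub]
      omega
    · have : dir 2 = (-1, 0) := rfl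
      rw [this]
      simp only [Prod.mk_add_mk, Prod.fst_sub, Prod.snd_sub]
      omega
    · have : dir 3 = (0, -1) := rfl
      rw [this]
      simp only [Prod.mk_add_mk, Prod.fst_sub, Prod.snd_sub]
      omega
  exact h (r + 1)

/-- The distance of two vertices is at most the distance of their sites. -/
theorem dist_pt_le (u w : ℤ × ℤ) : dist (pt u) (pt w) ≤ ((nm (ro u - ro w) : ℤ) : ℝ) := by
  have h1 : dist (pt u) (pt w) ≤ |(u.1 - w.1 : ℝ)| + |(u.2 - w.2 : ℝ)| := by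
    rw [dist_eq_norm]
    refine (Complex.norm_le_abs_re_add_abs_im _).trans (le_of_eq ?_)
    simp [pt]
  refine h1.trans ?_
  have h2 : |u.1 - w.1| + |u.2 - w.2| ≤ nm (ro u - ro w) := by
    unfold nm H192.ro
    simp only [Prod.fst_sub, Prod.snd_sub]
    rcases abs_cases (u.1 - w.1) with ⟨e1, _⟩ | ⟨e1, _⟩ <;>
      rcases abs_cases (u.2 - w.2) with ⟨e2, _⟩ | ⟨e2, _⟩ <;> rw [e1, e2, le_max_iff]
    · right; rw [le_abs]; omega
    · left; rw [le_abs]; omega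
    · left; rw [le_abs]; omega
    · right; rw [le_abs]; omega
  have h3 : ((|u.1 - w.1| + |u.2 - w.2| : ℤ) : ℝ) ≤ ((nm (ro u - ro w) : ℤ) : ℝ) := by
    exact_mod_cast h2
  push_cast at h3
  exact h3

theorem norm_sq_le (r : Fin 4) : ‖sq r‖ ≤ 3 / 2 := by
  have h1 : ‖sq r‖ ^ 2 = 2 := by
    rw [Complex.sq_norm, Complex.normSq_apply]
    rcases sq_re r with h | h <;> rcases sq_im r with h' | h' <;> rw [h, h'] <;> norm_num
  nlinarith [norm_nonneg (sq r)]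

theorem dist_cpt (θ : ℝ) (h0 : 0 ≤ θ) (c : Medial) : dist (cpt θ c) (pt c.1) ≤ 3 / 2 * θ := by
  unfold cpt
  rw [dist_eq_norm, add_sub_cancel_left, norm_mul, Complex.norm_real, Real.norm_of_nonneg h0]
  nlinarith [norm_sq_le c.2]

section

variable {Φ : (ℝ × ℝ) ≃ₜ (ℝ × ℝ)} {ψ : ℂ → ℂ} {δ : ℕ → ℝ} {N k : ℕ → ℕ}
  {p : ∀ n, ZMod (N n) → ℤ × ℤ} {S : ℕ → Finset (ℤ × ℤ)} {ψn : ℕ → ℂ → ℂ}

/-- The end point of the curve is near the target vertex. -/
theorem dist_bM {m : ℕ} (q : ZMod m → ℤ × ℤ) (j : ℕ) {d : ℝ} (hd : 0 ≤ d) :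
    dist ((d : ℂ) * pt (q j)) (bM q j d) ≤ d := by
  rw [bM_eq, dist_eq_norm, ← mul_sub, norm_mul, Complex.norm_real, Real.norm_of_nonneg hd,
    ← dist_eq_norm, dist_comm]
  have h := dist_cpt (3 / 8) (by norm_num) (ce q j)
  have h2 : dist (cpt (3 / 8) (ce q j)) (pt (q j)) ≤ 1 := by
    refine h.trans (by norm_num)
  exact mul_le_of_le_one_right hd h2

/-- **The boundary points `ψn b` with large `b` are near the target.** -/
theorem near_b (H : Set6 Φ ψ δ N k p S ψn) {η : ℝ} (hη : 0 < η) :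
    ∃ b₁ : ℝ, 0 < b₁ ∧ ∀ᶠ n in atTop, ∀ w ∈ HC, b₁ ≤ ‖w‖ →
      dist (ψn n w) ((δ n : ℂ) * pt (p n (k n))) < η := by
  have hU : Uni ψ (bq Φ) := SLE.uni_of_uniformizer R1.i_uinj H.unif
  have h3 : ∀ᶠ w in cobounded ℂ ⊓ 𝓟 HC, dist (ψ w) (bq Φ) < η / 4 :=
    (Metric.tendsto_nhds.1 hU.inf) (η / 4) (by positivity)
  rw [eventually_inf_principal] at h3
  obtain ⟨R1, hR1⟩ := (hasBasis_cobounded_norm.eventually_iff).1 h3 |>.imp fun _ h => h.2
  refine ⟨max R1 1, by positivity, ?_⟩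
  filter_upwards [H.conv (η / 4) (by positivity), H469.bM_near H (ε := η / 4) (by positivity),
    (Metric.tendsto_nhds.1 H.appr.2.1) (η / 4) (by positivity)] with n h1 h2 h4 w hw hwb
  have h5 := h1 w hw
  have h6 := hR1 (show R1 ≤ ‖w‖ from (le_max_left _ _).trans hwb) hw
  obtain ⟨hd, -⟩ := H.appr.1 n
  rw [dist_zero_right, Real.norm_of_nonneg hd.le] at h4
  have h7 := dist_bM (p n) (k n) hd.le
  have h8 := dist_triangle4 (ψn n w) (ψ w) (bq Φ) ((δ n : ℂ) * pt (p n (k n)))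
  have h9 := dist_triangle_left (bq Φ) ((δ n : ℂ) * pt (p n (k n))) (bM (p n) (k n) (δ n))
  rw [dist_comm ((δ n : ℂ) * pt (p n (k n)))] at h7
  linarith

/-- **[FAR]** The path and the squares which were read are at distance `ρ` from the target. -/
theorem far (H : Set6 Φ ψ δ N k p S ψn) {T R : ℝ} (hT : 0 ≤ T) (hR : 0 ≤ R) :
    ∃ ρ : ℝ, 0 < ρ ∧ ∀ᶠ n in atTop, ∀ κ : Finset (Sym2 (ℤ × ℤ)) → ℕ,
      QE.BefIx (exn δ N k p S ψn n) T R κ → ∀ A ∈ (exn δ N k p S ψn n).C,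
      (∀ t ∈ Icc (0 : ℝ) (κ A),
        ρ ≤ dist (pl (p n) (k n) (δ n) A t) ((δ n : ℂ) * pt (p n (k n)))) ∧
      ∀ q ∈ Rd (p n) (k n) (S n) A (κ A), ρ / δ n ≤ ((nm (q - ro (p n (k n))) : ℤ) : ℝ) := by
  obtain ⟨ρ, hρ, h⟩ := H469.far_path H hT hR
  refine ⟨ρ / 2, by positivity, ?_⟩
  filter_upwards [h, (Metric.tendsto_nhds.1 H.appr.2.1) (ρ / 8) (by positivity)] with
    n hn hδ κ hκ A hA
  obtain ⟨hd, -⟩ := H.appr.1 n
  rw [dist_zero_right, Real.norm_of_nonneg hd.le] at hδ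
  have h7 := dist_bM (p n) (k n) hd.le
  have hpl : ∀ t ∈ Icc (0 : ℝ) (κ A),
      ρ - δ n ≤ dist (pl (p n) (k n) (δ n) A t) ((δ n : ℂ) * pt (p n (k n))) := by
    intro t ht
    have h1 := (hn κ hκ A hA t ht).1
    have h2 := dist_triangle (pl (p n) (k n) (δ n) A t) ((δ n : ℂ) * pt (p n (k n)))
      (bM (p n) (k n) (δ n))
    linarith
  refine ⟨fun t ht => by linarith [hpl t ht], fun q hq => ?_⟩
  have hA' : A ⊆ edges (S n) := (mem_Qc (p := p n) (k := k n) (δ := δ n)).1 hA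
  rw [mem_Rd hA'] at hq
  obtain ⟨-, i, hi, rfl⟩ := hq
  have hK : κ A < (exn δ N k p S ψn n).K A := (hκ.2 A hA).1
  have hK' : κ A < nu (p n) (k n) A := hK
  unfold nu at hK'
  have h1 := hpl ((i + 1 : ℕ) : ℝ) ⟨Nat.cast_nonneg _, by exact_mod_cast (by omega : i + 1 ≤ κ A)⟩
  have h2 : pl (p n) (k n) (δ n) A ((i + 1 : ℕ) : ℝ) =
      (δ n : ℂ) * cpt (1 / 4) (run (p n) (k n) A i) := by
    unfold pl
    rw [lin_nat, xv_mid (by omega)]
  rw [h2, dist_eq_norm, ← mul_sub, norm_mul, Complex.norm_real, Real.norm_of_nonneg hd.le,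
    ← dist_eq_norm] at h1
  have h3 := dist_cpt (1 / 4) (by norm_num) (run (p n) (k n) A i)
  have h4 := dist_triangle (cpt (1 / 4) (run (p n) (k n) A i))
    (pt (run (p n) (k n) A i).1) (pt (p n (k n)))
  have h5 := dist_pt_le (run (p n) (k n) A i).1 (p n (k n))
  have h6 := sq_near (run (p n) (k n) A i)
  have h8 : nm (ro (run (p n) (k n) A i).1 - ro (p n (k n))) ≤
      nm (H192.sq (ahead (run (p n) (k n) A i)) - ro (p n (k n))) + 1 := by
    have := Enl.nm_tri (ro (run (p n) (k n) A i).1) (H192.sq (ahead (run (p n) (k n) A i)))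
      (ro (p n (k n)))
    have e := Enl.nm_sub_comm (ro (run (p n) (k n) A i).1)
      (H192.sq (ahead (run (p n) (k n) A i)))
    omega
  have h9 : ((nm (ro (run (p n) (k n) A i).1 - ro (p n (k n))) : ℤ) : ℝ) ≤
      ((nm (H192.sq (ahead (run (p n) (k n) A i)) - ro (p n (k n))) : ℤ) : ℝ) + 1 := by
    exact_mod_cast h8
  rw [div_le_iff₀ hd]
  nlinarith

/-- **[FAR]**, the form for the boundary near the target: the part of the plane (of the squares) which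
is not farther from the target than the point `ψn b`, up to `ρ`, is at distance `ρ` from the path and
from the squares which were read. -/
theorem far_seg (H : Set6 Φ ψ δ N k p S ψn) {T R : ℝ} (hT : 0 ≤ T) (hR : 0 ≤ R) :
    ∃ b₁ : ℝ, 0 < b₁ ∧ ∃ ρ : ℝ, 0 < ρ ∧ ∀ᶠ n in atTop, ∀ b : ℝ, b₁ ≤ b →
      ∀ κ : Finset (Sym2 (ℤ × ℤ)) → ℕ, QE.BefIx (exn δ N k p S ψn n) T R κ →
      ∀ A ∈ (exn δ N k p S ψn n).C,
      (∀ t ∈ Icc (0 : ℝ) (κ A), ∀ y : ℂ, dist y ((δ n : ℂ) * pt (p n (k n))) ≤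
        2 * (dist (ψn n b) ((δ n : ℂ) * pt (p n (k n))) + ρ) →
        ρ ≤ dist (pl (p n) (k n) (δ n) A t) y) ∧
      ∀ q ∈ Rd (p n) (k n) (S n) A (κ A), ∀ x : ℤ × ℤ,
        ((nm (x - ro (p n (k n))) : ℤ) : ℝ) * δ n ≤
          2 * (dist (ψn n b) ((δ n : ℂ) * pt (p n (k n))) + ρ) →
        ρ / δ n ≤ ((nm (q - x) : ℤ) : ℝ) := by
  obtain ⟨ρ, hρ, h⟩ := far H hT hR
  obtain ⟨b₁, hb, h'⟩ := near_b H (η := ρ / 8) (by positivity)
  refine ⟨b₁, hb, ρ / 8, by positivity, ?_⟩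
  filter_upwards [h, h'] with n h1 h2 b hb1 κ hκ A hA
  obtain ⟨h3, h4⟩ := h1 κ hκ A hA
  have h5 := h2 (b : ℂ) (by simp [HC]) (by
    rw [Complex.norm_real, Real.norm_eq_abs]
    exact hb1.trans (le_abs_self b))
  obtain ⟨hd, -⟩ := H.appr.1 n
  refine ⟨fun t ht y hy => ?_, fun q hq x hx => ?_⟩
  · have h6 := h3 t ht
    have h7 := dist_triangle (pl (p n) (k n) (δ n) A t) y ((δ n : ℂ) * pt (p n (k n)))
    linarith
  · have h6 := h4 q hq
    have h7 := Enl.nm_tri q x (ro (p n (k n)))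
    have h8 : ((nm (q - ro (p n (k n))) : ℤ) : ℝ) ≤ ((nm (q - x) : ℤ) : ℝ) +
        ((nm (x - ro (p n (k n))) : ℤ) : ℝ) := by exact_mod_cast h7
    rw [div_le_iff₀ hd] at h6 ⊢
    nlinarith

end

end Vale.Agent.P167.H825.G
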